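/-
P134 (De Giorgi): uniform gradient bound for bounded solutions.
-/
import Vale.Agent.P134.Quot
import Vale.Agent.P100.Weighted.Potential

open MeasureTheory Filter Topology
open scoped InnerProductSpace

noncomputable section

namespace Vale.Agent.P134.Periodic

variable {d : ℕ}

/-- A bounded solution of the Allen-Cahn equation. -/
structure Sol (u : Ed d → ℝ) : Prop where
  smooth : ContDiff ℝ 2 u
  bdd : ∀ x, |u x| ≤ 1
  eqn : ∀ x, Laplacian.laplacian u x = u x ^ 3 - u x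

lemma abs_ac_le {t : ℝ} (ht : |t| ≤ 1) : |t ^ 3 - t| ≤ 2 := by
  obtain ⟨h1, h2⟩ := abs_le.1 ht
  rw [abs_le]; constructor <;> nlinarith [sq_nonneg t, sq_nonneg (t - 1), sq_nonneg (t + 1)]

lemma Sol.abs_lap_le {u : Ed d → ℝ} (h : Sol u) (x : Ed d) :
    |Laplacian.laplacian u x| ≤ 2 := by
  rw [h.eqn x]; exact abs_ac_le (h.bdd x)

/-- The gradient bound, uniform over solutions. -/
lemma exists_grad_bound (d : ℕ) :
    ∃ M, 0 ≤ M ∧ ∀ u : Ed d → ℝ, Sol u → ∀ x, ‖fderiv ℝ u x‖ ≤ M := by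
  obtain ⟨C, hC0, hC⟩ := Vale.Agent.P100.Weighted.lipschitz_of_bounds d
  refine ⟨C * (1 + 2), by positivity, fun u h x => ?_⟩
  refine norm_fderiv_le_of_lip' ℝ (by positivity) ?_
  filter_upwards [Metric.closedBall_mem_nhds x one_pos] with y hy
  have := hC u x 1 2 h.smooth (fun z _ => h.bdd z) (fun z _ => h.abs_lap_le z) y hy x
    (Metric.mem_closedBall_self zero_le_one)
  simpa [Real.norm_eq_abs, dist_eq_norm] using this

lemma abs_Dd_le {u : Ed d → ℝ} {M : ℝ} (hM : ∀ x, ‖fderiv ℝ u x‖ ≤ M) (a x : Ed d) :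
    |Dd u a x| ≤ M * ‖a‖ := by
  rw [← Real.norm_eq_abs]
  exact le_trans ((fderiv ℝ u x).le_opNorm a)
    (mul_le_mul_of_nonneg_right (hM x) (norm_nonneg a))

lemma abs_pd_le {u : Ed d → ℝ} {M : ℝ} (hM : ∀ x, ‖fderiv ℝ u x‖ ≤ M) (i : Fin d) (x : Ed d) :
    |pd u i x| ≤ M := by
  simpa [Dd, pd, norm_bb] using abs_Dd_le hM (bb i) x

lemma abs_dq_le {u : Ed d → ℝ} (hu : ContDiff ℝ 2 u) {M : ℝ} (hM : ∀ x, ‖fderiv ℝ u x‖ ≤ M)
    (a : Ed d) {s : ℝ} (hs : 0 < s) (x : Ed d) : |dq u a s x| ≤ M * ‖a‖ := by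
  obtain ⟨t, _, ht⟩ := dq_slope hu a hs x
  rw [ht]; exact abs_Dd_le hM a _

lemma abs_cc_le {u : Ed d → ℝ} (hb : ∀ x, |u x| ≤ 1) (a : Ed d) (s : ℝ) (x : Ed d) :
    |cc u a s x| ≤ 4 := by
  have h1 := abs_le.1 (hb x)
  have h2 := abs_le.1 (hb (x + s • a))
  rw [cc, abs_le]; constructor <;> nlinarith

lemma tendsto_cc {u : Ed d → ℝ} (hu : Continuous u) (a x : Ed d) {s : ℕ → ℝ}
    (hs : Tendsto s atTop (𝓝 0)) :
    Tendsto (fun n => cc u a (s n) x) atTop (𝓝 (3 * u x ^ 2 - 1)) := by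
  have hu' : Tendsto (fun n => u (x + s n • a)) atTop (𝓝 (u x)) := by
    have h : Continuous fun t : ℝ => u (x + t • a) :=
      hu.comp (continuous_const.add (continuous_id.smul continuous_const))
    have h2 := (h.tendsto 0).comp hs
    simp only [Function.comp_def, zero_smul, add_zero] at h2
    exact h2
  have := (((hu'.pow 2).add (hu'.mul_const (u x))).add_const (u x ^ 2)).sub_const (1 : ℝ)
  rwa [show 3 * u x ^ 2 - 1 = u x ^ 2 + u x * u x + u x ^ 2 - 1 by ring]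

/-- Directional derivatives are combinations of the partial derivatives. -/
lemma Dd_eq_sum (u : Ed d → ℝ) (a x : Ed d) :
    Dd u a x = ∑ i, ⟪bb i, a⟫_ℝ * pd u i x := by
  show fderiv ℝ u x a = _
  conv_lhs => rw [← (EuclideanSpace.basisFun (Fin d) ℝ).sum_repr' a]
  simp [pd, bb]

lemma sq_Dd_le (u : Ed d → ℝ) (a x : Ed d) : Dd u a x ^ 2 ≤ ‖a‖ ^ 2 * G u u x := by
  rw [Dd_eq_sum]
  refine (Finset.sum_mul_sq_le_sq_mul_sq _ _ _).trans (le_of_eq ?_)
  congr 1
  · rw [← (EuclideanSpace.basisFun (Fin d) ℝ).sum_sq_inner_right a]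
    rfl
  · exact Finset.sum_congr rfl fun i _ => sq _

lemma lap_translate (u : Ed d → ℝ) (T x : Ed d) :
    Laplacian.laplacian (fun y => u (y + T)) x = Laplacian.laplacian u (x + T) := by
  rw [InnerProductSpace.laplacian_eq_iteratedFDeriv_orthonormalBasis _
      (EuclideanSpace.basisFun (Fin d) ℝ),
    InnerProductSpace.laplacian_eq_iteratedFDeriv_orthonormalBasis _
      (EuclideanSpace.basisFun (Fin d) ℝ)]
  simp only [iteratedFDeriv_comp_add_right]

lemma pd_translate (u : Ed d → ℝ) (T : Ed d) (i : Fin d) (x : Ed d) :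
    pd (fun y => u (y + T)) i x = pd u i (x + T) := by
  unfold pd; rw [fderiv_comp_add_right]

lemma Dd_translate (u : Ed d → ℝ) (T a x : Ed d) :
    Dd (fun y => u (y + T)) a x = Dd u a (x + T) := by
  unfold Dd; rw [fderiv_comp_add_right]

lemma Sol.translate {u : Ed d → ℝ} (h : Sol u) (T : Ed d) : Sol fun y => u (y + T) :=
  ⟨h.smooth.comp (contDiff_id.add contDiff_const), fun x => h.bdd _,
    fun x => by rw [lap_translate]; exact h.eqn _⟩

end Vale.Agent.P134.Periodic
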