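/-
P134 (De Giorgi): the limit profile at the top of a monotone solution.
-/
import Vale.Agent.P134.Limit.Bounds
import Vale.Agent.P100.Weighted.BlowUp

open MeasureTheory Filter Topology
open scoped InnerProductSpace

noncomputable section

namespace Vale.Agent.P134.Periodic

variable {d : ℕ}

/-- Integer translates of `u` along `e`. -/
def slide (u : Ed d → ℝ) (e : Ed d) (k : ℕ) : Ed d → ℝ := fun x => u (x + (k : ℝ) • e)

/-- The profile at the top. -/
def prof (u : Ed d → ℝ) (e : Ed d) (x : Ed d) : ℝ := ⨆ k, slide u e k x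

lemma hasDerivAt_line {u : Ed d → ℝ} (hu : Differentiable ℝ u) (x e : Ed d) (t : ℝ) :
    HasDerivAt (fun t : ℝ => u (x + t • e)) (Dd u e (x + t • e)) t := by
  have h1 : HasDerivAt (fun t : ℝ => x + t • e) e t := by
    simpa using ((hasDerivAt_id t).smul_const e).const_add x
  exact (hu (x + t • e)).hasFDerivAt.comp_hasDerivAt t h1

lemma strictMono_line {u : Ed d → ℝ} (hu : Differentiable ℝ u) {e : Ed d}
    (hmono : ∀ x, 0 < Dd u e x) (x : Ed d) : StrictMono fun t : ℝ => u (x + t • e) :=
  strictMono_of_hasDerivAt_pos (hasDerivAt_line hu x e) fun _ => hmono _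

lemma abs_sub_le_of_grad {u : Ed d → ℝ} (hu : Differentiable ℝ u) {M : ℝ}
    (hM : ∀ x, ‖fderiv ℝ u x‖ ≤ M) (x y : Ed d) : |u x - u y| ≤ M * ‖x - y‖ := by
  simpa [Real.norm_eq_abs] using convex_univ.norm_image_sub_le_of_norm_fderiv_le
    (fun z _ => hu z) (fun z _ => hM z) (Set.mem_univ y) (Set.mem_univ x)

section

variable {u : Ed d → ℝ} {e : Ed d} (h : Sol u) (hmono : ∀ x, 0 < Dd u e x)

include h hmono

lemma tendsto_prof (x : Ed d) : Tendsto (fun k => slide u e k x) atTop (𝓝 (prof u e x)) :=
  tendsto_atTop_ciSup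
    (fun _ _ hkl => (strictMono_line (h.smooth.differentiable (by norm_num)) hmono x).monotone
      (Nat.cast_le.2 hkl))
    ⟨1, by rintro _ ⟨k, rfl⟩; exact le_trans (le_abs_self _) (h.bdd _)⟩

lemma abs_prof_le (x : Ed d) : |prof u e x| ≤ 1 :=
  le_of_tendsto' (tendsto_prof h hmono x).abs fun _ => h.bdd _

lemma continuous_prof : Continuous (prof u e) := by
  obtain ⟨M, hM0, hM⟩ := exists_grad_bound d
  refine LipschitzWith.continuous (K := M.toNNReal) (LipschitzWith.of_dist_le_mul fun x y => ?_)
  rw [Real.coe_toNNReal _ hM0, Real.dist_eq, dist_eq_norm]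
  refine le_of_tendsto' ((tendsto_prof h hmono x).sub (tendsto_prof h hmono y)).abs fun k => ?_
  refine (abs_sub_le_of_grad (h.smooth.differentiable (by norm_num)) (hM u h) _ _).trans
    (le_of_eq ?_)
  rw [add_sub_add_right_eq_sub]

/-- The profile solves the same equation. -/
lemma sol_prof : Sol (prof u e) := by
  have hF : ∀ k, ContDiff ℝ 2 fun x => 1 + slide u e k x := fun k =>
    contDiff_const.add (h.translate _).smooth
  have hlap : ∀ {f : Ed d → ℝ}, ContDiff ℝ 2 f → ∀ x,
      Laplacian.laplacian (fun y => 1 + f y) x = Laplacian.laplacian f x := by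
    intro f hf x
    rw [lap_eq (contDiff_const.add hf), lap_eq hf]
    simp [pd]
  have hev : Vale.Agent.P100.Weighted.EvBounded (fun k x => 1 + slide u e k x) 2 2 := fun R =>
    Eventually.of_forall fun k z _ => by
      obtain ⟨h1, h2⟩ := abs_le.1 ((h.translate ((k : ℝ) • e)).bdd z)
      refine ⟨?_, ?_, ?_⟩
      · simp only [slide]; linarith
      · simp only [slide]; linarith
      · show |Laplacian.laplacian (fun x => 1 + slide u e k x) z| ≤ 2
        rw [hlap (f := slide u e k) (h.translate _).smooth]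
        exact (h.translate _).abs_lap_le z
  set fl : Ed d → ℝ := fun x => -(prof u e x ^ 3 - prof u e x) with hfldef
  have hfl : ∀ x, Tendsto (fun k => -Laplacian.laplacian (fun y => 1 + slide u e k y) x) atTop
      (𝓝 (fl x)) := by
    intro x
    have := (((tendsto_prof h hmono x).pow 3).sub (tendsto_prof h hmono x)).neg
    refine this.congr fun k => ?_
    rw [hlap (f := slide u e k) (h.translate _).smooth]
    rw [show Laplacian.laplacian (slide u e k) x = _ from (h.translate ((k : ℝ) • e)).eqn x]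
    rfl
  have hid : ∀ x R, 0 < R →
      Vale.Agent.P100.avg (fun y => 1 + prof u e y) x R + Vale.Agent.P100.Weighted.potT R fl x
        = (1 + prof u e x) * ∫ y : Ed d, Vale.Agent.P100.avgW y := fun x R hR =>
    Vale.Agent.P100.Weighted.identity_of_limit (F := fun k x => 1 + slide u e k x) hF hev
      strictMono_id (fun y => (tendsto_prof h hmono y).const_add 1) hfl x hR
  have hc := continuous_prof h hmono
  have hc' : Continuous fun y => 1 + prof u e y := continuous_const.add hc
  have hfc : Continuous fl := ((hc.pow 3).sub hc).neg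
  have h1 := Vale.Agent.P100.Weighted.contDiff_one_of_identity hid hc' hfc
  have hp1 : ContDiff ℝ 1 (prof u e) := by simpa using h1.sub (contDiff_const (c := (1 : ℝ)))
  have h2 := Vale.Agent.P100.Weighted.contDiff_two_of_identity hid hc'
    (((hp1.pow 3).sub hp1).neg)
  have hp2 : ContDiff ℝ 2 (prof u e) := by simpa using h2.sub (contDiff_const (c := (1 : ℝ)))
  refine ⟨hp2, abs_prof_le h hmono, fun x => ?_⟩
  rw [← hlap hp2, Vale.Agent.P100.Weighted.laplacian_of_identity hid h2 hfc]
  simp [hfldef]

omit hmono in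
/-- Periods of the solution are periods of its profile. -/
lemma prof_periodic {T : Ed d} (hT : ∀ x, u (x + T) = u x) (x : Ed d) :
    prof u e (x + T) = prof u e x := by
  refine iSup_congr fun k => ?_
  show u (x + T + (k : ℝ) • e) = u (x + (k : ℝ) • e)
  rw [add_right_comm, hT]

/-- The profile is invariant under `e`. -/
lemma prof_shift (x : Ed d) : prof u e (x + e) = prof u e x := by
  refine tendsto_nhds_unique (tendsto_prof h hmono (x + e)) ?_
  refine ((tendsto_prof h hmono x).comp (tendsto_add_atTop_nat 1)).congr fun k => ?_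
  show u (x + ((k + 1 : ℕ) : ℝ) • e) = u (x + e + (k : ℝ) • e)
  congr 1
  push_cast
  rw [add_smul, one_smul]; abel

/-- The direction of monotonicity is independent of the periods. -/
lemma e_notMem_span {m : ℕ} {τ : Fin m → Ed d} (hper : ∀ i x, u (x + τ i) = u x) :
    e ∉ Submodule.span ℝ (Set.range τ) := by
  intro hmem
  obtain ⟨c, hc⟩ := Submodule.mem_span_range_iff_exists_fun ℝ |>.1 hmem
  have hmn := strictMono_line (h.smooth.differentiable (by norm_num)) hmono 0
  have hgap : u 0 < u e := by simpa using hmn zero_lt_one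
  obtain ⟨δ, hδ, hball⟩ := Metric.continuousAt_iff.1
    (h.smooth.continuous.continuousAt (x := (0 : Ed d))) (u e - u 0) (sub_pos.2 hgap)
  -- integer translations of `j • e` accumulate at the origin
  obtain ⟨y, -, φ, hφ, hlim⟩ := (isCompact_univ_pi fun _ : Fin m => isCompact_Icc (a := (0 : ℝ))
    (b := 1)).tendsto_subseq (x := fun k : ℕ => fun i => Int.fract ((k : ℝ) * c i))
    (fun k i _ => ⟨Int.fract_nonneg _, (Int.fract_lt_one _).le⟩)
  set S := ∑ i, ‖τ i‖ with hS
  obtain ⟨N, hN⟩ := Metric.cauchySeq_iff.1 hlim.cauchySeq (δ / (S + 1)) (by positivity)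
  set p := φ N
  set q := φ (N + 1)
  have hpq : p < q := hφ (Nat.lt_succ_self N)
  set z : Fin m → ℤ := fun i => ⌊(q : ℝ) * c i⌋ - ⌊(p : ℝ) * c i⌋ with hz
  set r : Ed d := ∑ i, (Int.fract ((q : ℝ) * c i) - Int.fract ((p : ℝ) * c i)) • τ i with hr
  have hje : ((q - p : ℕ) : ℝ) • e = r + ∑ i, z i • τ i := by
    rw [← hc, Finset.smul_sum, hr, ← Finset.sum_add_distrib]
    refine Finset.sum_congr rfl fun i _ => ?_
    rw [smul_smul, ← Int.cast_smul_eq_zsmul ℝ, ← add_smul, Nat.cast_sub hpq.le, hz]
    congr 1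
    simp only [Int.fract]; push_cast; ring
  have hur : u (r + ∑ i, z i • τ i) = u r := by
    refine Finset.sum_induction _ (fun v => ∀ x, u (x + v) = u x)
      (fun a b ha hb x => by rw [← add_assoc, hb, ha]) (fun x => by simp) (fun i _ => ?_) r
    intro x
    induction z i using Int.induction_on generalizing x with
    | zero => simp
    | succ l ih => rw [add_zsmul, one_zsmul, ← add_assoc, hper, ih]
    | pred l ih =>
      rw [sub_zsmul, one_zsmul]
      have h1 := hper i (x + (-(l : ℤ) • τ i + -τ i))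
      rw [show x + (-(l : ℤ) • τ i + -τ i) + τ i = x + -(l : ℤ) • τ i by abel, ih] at h1
      exact h1.symm
  have hrn : ‖r‖ < δ := by
    have h1 : ‖r‖ ≤ ∑ i, δ / (S + 1) * ‖τ i‖ := by
      refine (norm_sum_le _ _).trans (Finset.sum_le_sum fun i _ => ?_)
      rw [norm_smul]
      refine mul_le_mul_of_nonneg_right ?_ (norm_nonneg _)
      have h2 := hN (N + 1) (Nat.le_succ N) N le_rfl
      exact (dist_le_pi_dist _ _ i).trans h2.le
    rw [← Finset.mul_sum, ← hS] at h1
    have hS0 : 0 ≤ S := Finset.sum_nonneg fun _ _ => norm_nonneg _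
    calc ‖r‖ ≤ δ / (S + 1) * S := h1
      _ < δ / (S + 1) * (S + 1) :=
        mul_lt_mul_of_pos_left (lt_add_one S) (by positivity)
      _ = δ := by field_simp
  have h1 : u e ≤ u r := by
    rw [← hur, ← hje]
    have hj : (1 : ℝ) ≤ ((q - p : ℕ) : ℝ) := by
      exact_mod_cast Nat.sub_pos_of_lt hpq
    simpa using hmn.monotone hj
  have h2 := hball (by simpa using hrn : dist r 0 < δ)
  rw [Real.dist_eq] at h2
  linarith [le_abs_self (u r - u 0)]

end

end Vale.Agent.P134.Periodic
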