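/-
P134 (De Giorgi): stability of monotone solutions and of their profiles.
-/
import Vale.Agent.P134.Limit.Profile

open MeasureTheory Filter Topology

noncomputable section

namespace Vale.Agent.P134.Periodic

variable {d : ℕ}

/-- Nonnegativity of the second variation. -/
def Stable (u : Ed d → ℝ) : Prop :=
  ∀ φ : Ed d → ℝ, ContDiff ℝ 1 φ → HasCompactSupport φ →
    0 ≤ ∫ x, (G φ φ x + (3 * u x ^ 2 - 1) * φ x ^ 2)

/-- Positive solutions of a Schrodinger equation make its form nonnegative. -/
lemma form_nonneg_of_pos {v c φ : Ed d → ℝ} (hv : ContDiff ℝ 2 v) (hpos : ∀ x, 0 < v x)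
    (hc : Continuous c) (hev : ∀ x, Laplacian.laplacian v x = c x * v x)
    (hφ : ContDiff ℝ 1 φ) (hφc : HasCompactSupport φ) :
    0 ≤ ∫ x, (G φ φ x + c x * φ x ^ 2) := by
  set σ : Ed d → ℝ := fun x => φ x / v x with hσdef
  have hσ : ContDiff ℝ 1 σ := hφ.div (hv.of_le (by norm_num)) fun x => (hpos x).ne'
  set ψ : Ed d → ℝ := fun x => φ x * σ x with hψdef
  have hψ : ContDiff ℝ 1 ψ := hφ.mul hσ
  have hψc : HasCompactSupport ψ := hφc.mul_right
  have h0 := ibp hψ hψc hv
  simp only [hev] at h0
  have e : ∀ x, ψ x * (c x * v x) = c x * φ x ^ 2 := fun x => by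
    simp only [hψdef, hσdef]; field_simp [(hpos x).ne']
  simp only [e] at h0
  have i1 : Integrable (G φ φ) :=
    integrable_off (continuous_G hφ (by norm_num) hφ (by norm_num)) hφc
      fun x hx => G_zero_off_left hx φ
  have i2 : Integrable (G ψ v) :=
    integrable_off (continuous_G hψ (by norm_num) hv (by norm_num)) hψc
      fun x hx => G_zero_off_left hx v
  have i3 : Integrable fun x => c x * φ x ^ 2 :=
    integrable_off (hc.mul (hφ.continuous.pow 2)) hφc fun x hx => by
      show c x * φ x ^ 2 = 0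
      rw [image_eq_zero_of_notMem_tsupport hx]; ring
  rw [integral_add i1 i3, h0]
  have pw : ∀ x, G ψ v x ≤ G φ φ x := by
    intro x
    refine Finset.sum_le_sum fun i _ => ?_
    have hdφ := hφ.differentiable (by norm_num) x
    have hdv := hv.differentiable (by norm_num) x
    have hdσ := hσ.differentiable (by norm_num) x
    have hσv : φ = fun y => σ y * v y := by
      funext y; simp [hσdef, div_mul_cancel₀ _ (hpos y).ne']
    have h1 : pd φ i x = σ x * pd v i x + v x * pd σ i x := by
      conv_lhs => rw [hσv]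
      exact pd_mul hdσ hdv i
    have h2 : pd ψ i x = φ x * pd σ i x + σ x * pd φ i x := pd_mul hdφ hdσ i
    have h3 : φ x = σ x * v x := congrFun hσv x
    rw [h2, h3, h1]
    nlinarith [sq_nonneg (v x * pd σ i x)]
  linarith [integral_mono i2 i1 pw]

/-- Monotone solutions are stable. -/
lemma stable_of_mono {u : Ed d → ℝ} (h : Sol u) {e : Ed d} (hmono : ∀ x, 0 < Dd u e x) :
    Stable u := by
  intro φ hφ hφc
  set s : ℕ → ℝ := fun n => 1 / ((n : ℝ) + 1) with hsdef
  have hspos : ∀ n, 0 < s n := fun n => by positivity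
  have hs0 : Tendsto s atTop (𝓝 0) := tendsto_one_div_add_atTop_nhds_zero_nat
  have hn : ∀ n, 0 ≤ ∫ x, (G φ φ x + cc u e (s n) x * φ x ^ 2) := fun n =>
    form_nonneg_of_pos (contDiff_dq h.smooth e (s n))
      (fun x => by
        obtain ⟨t, _, ht⟩ := dq_slope h.smooth e (hspos n) x
        rw [ht]; exact hmono _)
      (continuous_cc h.smooth e (s n)) (lap_dq h.smooth h.eqn e (s n)) hφ hφc
  have hGc := continuous_G hφ (by norm_num) hφ (by norm_num)
  obtain ⟨P, hP⟩ := hφc.isCompact.exists_bound_of_continuousOn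
    (show Continuous fun x => G φ φ x + 4 * φ x ^ 2 from
      hGc.add ((hφ.continuous.pow 2).const_mul 4)).continuousOn
  refine ge_of_tendsto' (lim_integral hφc.isCompact (C := P)
    (g := fun n x => G φ φ x + cc u e (s n) x * φ x ^ 2)
    (fun n => hGc.add ((continuous_cc h.smooth e (s n)).mul (hφ.continuous.pow 2)))
    (fun n x hx => by
      rw [G_zero_off_left hx, image_eq_zero_of_notMem_tsupport hx]; ring)
    (fun n x hx => ?_) fun x => ?_) hn
  · refine le_trans ?_ (le_trans (le_abs_self _) (by simpa [Real.norm_eq_abs] using hP x hx))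
    refine (abs_add_le _ _).trans (add_le_add (abs_of_nonneg (G_self_nonneg φ x)).le ?_)
    rw [abs_mul, abs_of_nonneg (sq_nonneg (φ x))]
    exact mul_le_mul_of_nonneg_right (abs_cc_le h.bdd e (s n) x) (sq_nonneg _)
  · exact tendsto_const_nhds.add ((tendsto_cc h.smooth.continuous e x hs0).mul_const _)

/-- The profile of a monotone solution is stable. -/
lemma stable_prof {u : Ed d → ℝ} (h : Sol u) {e : Ed d} (hmono : ∀ x, 0 < Dd u e x) :
    Stable (prof u e) := by
  intro φ hφ hφc
  have hn : ∀ k, 0 ≤ ∫ x, (G φ φ x + (3 * slide u e k x ^ 2 - 1) * φ x ^ 2) := fun k =>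
    stable_of_mono (h.translate _) (e := e) (fun x => by rw [Dd_translate]; exact hmono _) φ hφ hφc
  have hGc := continuous_G hφ (by norm_num) hφ (by norm_num)
  have hsc : ∀ k, Continuous (slide u e k) := fun k => (h.translate _).smooth.continuous
  obtain ⟨P, hP⟩ := hφc.isCompact.exists_bound_of_continuousOn
    (show Continuous fun x => G φ φ x + 4 * φ x ^ 2 from
      hGc.add ((hφ.continuous.pow 2).const_mul 4)).continuousOn
  refine ge_of_tendsto' (lim_integral hφc.isCompact (C := P)
    (g := fun k x => G φ φ x + (3 * slide u e k x ^ 2 - 1) * φ x ^ 2)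
    (fun k => hGc.add ((((hsc k).pow 2).const_mul 3).sub continuous_const |>.mul
      (hφ.continuous.pow 2)))
    (fun n x hx => by
      rw [G_zero_off_left hx, image_eq_zero_of_notMem_tsupport hx]; ring)
    (fun k x hx => ?_) fun x => ?_) hn
  · refine le_trans ?_ (le_trans (le_abs_self _) (by simpa [Real.norm_eq_abs] using hP x hx))
    refine (abs_add_le _ _).trans (add_le_add (abs_of_nonneg (G_self_nonneg φ x)).le ?_)
    rw [abs_mul, abs_of_nonneg (sq_nonneg (φ x))]
    refine mul_le_mul_of_nonneg_right ?_ (sq_nonneg _)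
    have h1 : |slide u e k x| ≤ 1 := h.bdd _
    obtain ⟨a, b⟩ := abs_le.1 h1
    rw [abs_le]; constructor <;> nlinarith
  · exact tendsto_const_nhds.add
      (((((tendsto_prof h hmono x).pow 2).const_mul 3).sub_const 1).mul_const _)

end Vale.Agent.P134.Periodic
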