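/-
P134 (De Giorgi): energy of a stable profile whose derivatives have constant sign.
-/
import Vale.Agent.P134.Coords
import Vale.Agent.P134.Limit.Stable

open MeasureTheory Filter Topology
open scoped InnerProductSpace
open Vale.Agent.P100

noncomputable section

namespace Vale.Agent.P134.Periodic

variable {d : ℕ}

/-- The energy density. -/
def energy (u : Ed d → ℝ) (x : Ed d) : ℝ := G u u x / 2 + (1 - u x ^ 2) ^ 2 / 4

lemma energy_nonneg (u : Ed d → ℝ) (x : Ed d) : 0 ≤ energy u x := by
  unfold energy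
  have := G_self_nonneg u x
  positivity

/-- Total variation density of a test function. -/
def var1 (χ : Ed d → ℝ) (x : Ed d) : ℝ := ∑ i, |pd χ i x|

lemma var1_nonneg (χ : Ed d → ℝ) (x : Ed d) : 0 ≤ var1 χ x :=
  Finset.sum_nonneg fun _ _ => abs_nonneg _

lemma continuous_var1 {χ : Ed d → ℝ} (hχ : ContDiff ℝ 1 χ) : Continuous (var1 χ) :=
  continuous_finsetSum _ fun i _ => (continuous_pd hχ one_ne_zero i).abs

lemma var1_zero_off {χ : Ed d → ℝ} {x : Ed d} (hx : x ∉ tsupport χ) : var1 χ x = 0 := by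
  simp [var1, pd_zero_off hx]

lemma integrable_var1 {χ : Ed d → ℝ} (hχ : ContDiff ℝ 1 χ) (hc : HasCompactSupport χ) :
    Integrable (var1 χ) :=
  integrable_off (continuous_var1 hχ) hc fun _ hx => var1_zero_off hx

/-- A convergent function with convergent derivative has derivative tending to zero. -/
lemma limit_deriv_eq_zero {F F' : ℝ → ℝ} {A B : ℝ} (hd : ∀ t, HasDerivAt F (F' t) t)
    (hF : Tendsto F atTop (𝓝 A)) (hF' : Tendsto F' atTop (𝓝 B)) : B = 0 := by
  have hex : ∀ t : ℝ, ∃ s ∈ Set.Ioo t (t + 1), F' s = (F (t + 1) - F t) / (t + 1 - t) := fun t =>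
    exists_hasDerivAt_eq_slope F F' (lt_add_one t)
      (fun s _ => (hd s).continuousAt.continuousWithinAt) fun s _ => hd s
  choose s hs he using hex
  have h1 : Tendsto (fun t => F' (s t)) atTop (𝓝 B) :=
    hF'.comp (tendsto_atTop_mono (fun t => (hs t).1.le) tendsto_id)
  have h2 : Tendsto (fun t => (F (t + 1) - F t) / (t + 1 - t)) atTop (𝓝 0) := by
    simpa [Function.comp_def] using
      (hF.comp (tendsto_atTop_add_const_right atTop 1 tendsto_id)).sub hF
  exact tendsto_nhds_unique (h1.congr he) h2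

/-- The zero solution is unstable. -/
lemma not_stable_zero (hd : 0 < d) : ¬ Stable (fun _ : Ed d => (0 : ℝ)) := by
  intro hst
  have hW : ContDiff ℝ 1 (avgW : Ed d → ℝ) := Weighted.contDiff_two_avgW.of_le (by norm_num)
  set A : ℝ := ∫ y : Ed d, G avgW avgW y
  set B : ℝ := ∫ y : Ed d, avgW y ^ 2
  have hB : 0 < B :=
    (continuous_avgW.pow 2).integral_pos_of_hasCompactSupport_nonneg_nonzero
      (HasCompactSupport.intro (isCompact_closedBall (0 : Ed d) 1) fun y hy => by
        show avgW y ^ 2 = 0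
        rw [Metric.mem_closedBall, dist_zero_right, not_le] at hy
        rw [avgW_eq_zero hy.le]; norm_num)
      (fun y => sq_nonneg _) (x := 0) (by simp [avgW])
  have hA : 0 ≤ A := integral_nonneg fun y => G_self_nonneg _ y
  set R : ℝ := A / B + 1 with hRdef
  have hR1 : 1 ≤ R := by
    have : 0 ≤ A / B := by positivity
    linarith
  have hR : 0 < R := by linarith
  set φ : Ed d → ℝ := fun x => avgW (R⁻¹ • x) with hφdef
  have hφ : ContDiff ℝ 1 φ := hW.comp (contDiff_const_smul R⁻¹)
  have hφc : HasCompactSupport φ :=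
    hasCompactSupport_avgW.comp_homeomorph (Homeomorph.smulOfNeZero R⁻¹ (inv_ne_zero hR.ne'))
  have h0 := hst φ hφ hφc
  have hpd : ∀ i x, pd φ i x = R⁻¹ * pd avgW i (R⁻¹ • x) := by
    intro i x
    have h1 : HasFDerivAt (fun z : Ed d => R⁻¹ • z) (R⁻¹ • ContinuousLinearMap.id ℝ (Ed d)) x :=
      (hasFDerivAt_id x).const_smul R⁻¹
    simp only [pd, hφdef]
    rw [show fderiv ℝ (fun z => avgW (R⁻¹ • z)) x = _ from
      (((hW.differentiable one_ne_zero) (R⁻¹ • x)).hasFDerivAt.comp x h1).fderiv]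
    simp
  have hG : ∀ x, G φ φ x = R⁻¹ ^ 2 * G avgW avgW (R⁻¹ • x) := by
    intro x
    simp only [G, hpd, Finset.mul_sum]
    exact Finset.sum_congr rfl fun i _ => by ring
  have e1 : (fun x => G φ φ x + (3 * (0 : ℝ) ^ 2 - 1) * φ x ^ 2)
      = fun x => (fun y => R⁻¹ ^ 2 * G avgW avgW y - avgW y ^ 2) (R⁻¹ • x) := by
    funext x; rw [hG]; simp only [hφdef]; ring
  have i1 : Integrable (G (avgW : Ed d → ℝ) avgW) :=
    integrable_off (continuous_G hW one_ne_zero hW one_ne_zero) hasCompactSupport_avgW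
      fun x hx => G_zero_off_left hx _
  have i2 : Integrable fun y : Ed d => avgW y ^ 2 :=
    integrable_off (continuous_avgW.pow 2) hasCompactSupport_avgW fun x hx => by
      show avgW x ^ 2 = 0
      rw [image_eq_zero_of_notMem_tsupport hx]; norm_num
  rw [e1, Measure.integral_comp_smul (volume : Measure (Ed d))
      (fun y => R⁻¹ ^ 2 * G avgW avgW y - avgW y ^ 2) R⁻¹,
    integral_sub (i1.const_mul _) i2, integral_const_mul, smul_eq_mul] at h0
  have hpos : 0 < |((R⁻¹) ^ Module.finrank ℝ (Ed d))⁻¹| := by positivity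
  have h1 := nonneg_of_mul_nonneg_right h0 hpos
  have h2 : R⁻¹ ^ 2 * A < B := by
    rw [inv_pow, inv_mul_lt_iff₀ (by positivity)]
    have h3 : A < R * B := by rw [hRdef, add_mul, div_mul_cancel₀ _ hB.ne']; linarith
    exact h3.trans_le (mul_le_mul_of_nonneg_right (by nlinarith) hB.le)
  linarith

/-- The gradient of a function whose derivatives have constant sign keeps one direction. -/
lemma gradient_of_sign {v : Ed d → ℝ}
    (hsign : ∀ a, (∀ x, Dd v a x = 0) ∨ (∀ x, 0 < Dd v a x) ∨ ∀ x, Dd v a x < 0)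
    (hcase : ∃ a x, Dd v a x ≠ 0) :
    ∃ ω : Ed d, ‖ω‖ = 1 ∧ (∀ x, 0 < Dd v ω x) ∧
      ∀ x a, fderiv ℝ v x a = Dd v ω x * ⟪ω, a⟫_ℝ := by
  obtain ⟨a0, x0, ha0⟩ := hcase
  set g0 : Ed d := ∑ i, pd v i 0 • bb i with hg0
  have hD0 : ∀ a, Dd v a 0 = ⟪g0, a⟫_ℝ := fun a => by
    rw [Dd_eq_sum, hg0, sum_inner]
    exact Finset.sum_congr rfl fun i _ => by rw [real_inner_smul_left]; ring
  have ha00 : Dd v a0 0 ≠ 0 := by
    rcases hsign a0 with h1 | h1 | h1
    · exact absurd (h1 x0) ha0
    · exact (h1 0).ne'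
    · exact (h1 0).ne
  have hg0' : g0 ≠ 0 := fun h0 => ha00 (by rw [hD0, h0, inner_zero_left])
  set ω : Ed d := ‖g0‖⁻¹ • g0 with hωdef
  have hω : ‖ω‖ = 1 := norm_smul_inv_norm hg0'
  have hωω : ⟪ω, ω⟫_ℝ = 1 := by rw [real_inner_self_eq_norm_sq, hω]; norm_num
  have hg0ω : ∀ a, ⟪g0, a⟫_ℝ = ‖g0‖ * ⟪ω, a⟫_ℝ := fun a => by
    rw [hωdef, real_inner_smul_left, ← mul_assoc, mul_inv_cancel₀ (norm_ne_zero_iff.2 hg0'),
      one_mul]
  set q : Ed d → ℝ := Dd v ω with hqdef
  have hq0 : 0 < Dd v ω 0 := by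
    rw [hD0, hg0ω, hωω, mul_one]; exact norm_pos_iff.2 hg0'
  have hqpos : ∀ x, 0 < q x := by
    rcases hsign ω with h1 | h1 | h1
    · exact absurd (h1 0) hq0.ne'
    · exact h1
    · exact absurd (h1 0) (not_lt.2 hq0.le)
  have hgrad : ∀ x a, fderiv ℝ v x a = q x * ⟪ω, a⟫_ℝ := by
    intro x a
    set b := a - ⟪ω, a⟫_ℝ • ω with hb
    have hb0 : Dd v b 0 = 0 := by
      rw [hD0, hg0ω, hb, inner_sub_right, real_inner_smul_right, hωω]; ring
    have hbx : Dd v b x = 0 := by
      rcases hsign b with h1 | h1 | h1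
      · exact h1 x
      · exact absurd hb0 (h1 0).ne'
      · exact absurd hb0 (h1 0).ne
    have e : a = ⟪ω, a⟫_ℝ • ω + b := by rw [hb]; abel
    conv_lhs => rw [e, map_add, map_smul, smul_eq_mul]
    rw [show fderiv ℝ v x b = 0 from hbx, add_zero, hqdef, mul_comm]
    rfl
  exact ⟨ω, hω, hqpos, hgrad⟩

/-- Energy bound for stable solutions whose derivatives have constant sign. -/
lemma energy_le_of_sign (hd : 0 < d) :
    ∃ M, 0 ≤ M ∧ ∀ v : Ed d → ℝ, Sol v → Stable v →
      (∀ a, (∀ x, Dd v a x = 0) ∨ (∀ x, 0 < Dd v a x) ∨ ∀ x, Dd v a x < 0) →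
      ∀ χ : Ed d → ℝ, ContDiff ℝ 1 χ → HasCompactSupport χ → (∀ x, 0 ≤ χ x) →
      ∫ x, χ x * energy v x ≤ M * ∫ x, var1 χ x := by
  obtain ⟨M, hM0, hM⟩ := exists_grad_bound d
  refine ⟨M, hM0, fun v h hst hsign χ hχ hχc hχ0 => ?_⟩
  have hd1 : Differentiable ℝ v := h.smooth.differentiable (by norm_num)
  by_cases hcase : ∀ a x, Dd v a x = 0
  · have hconst : ∀ x, v x = v 0 := fun x =>
      is_const_of_fderiv_eq_zero hd1 (fun y => by ext a; exact hcase a y) x 0
    have hroot : v 0 ^ 3 - v 0 = 0 := by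
      rw [← h.eqn 0, lap_eq h.smooth]
      refine Finset.sum_eq_zero fun i _ => ?_
      rw [show (fun y => pd v i y) = fun _ => (0 : ℝ) from funext fun y => hcase (bb i) y]
      simp
    have hne : v 0 ≠ 0 := fun h0 => not_stable_zero hd (by
      have : v = fun _ => (0 : ℝ) := funext fun x => (hconst x).trans h0
      rwa [this] at hst)
    have hsq : v 0 ^ 2 = 1 := by
      have : v 0 * (v 0 ^ 2 - 1) = 0 := by rw [← hroot]; ring
      linarith [(mul_eq_zero.1 this).resolve_left hne]
    have hz : ∀ x, χ x * energy v x = 0 := by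
      intro x
      have hG : G v v x = 0 := Finset.sum_eq_zero fun i _ => by
        rw [show pd v i x = 0 from hcase (bb i) x, zero_mul]
      rw [energy, hG, hconst x, hsq]; ring
    simp only [hz, integral_zero]
    exact mul_nonneg hM0 (integral_nonneg fun x => var1_nonneg χ x)
  · push Not at hcase
    obtain ⟨ω, hω, hqpos, hgrad⟩ := gradient_of_sign hsign hcase
    have hωω : ⟪ω, ω⟫_ℝ = 1 := by rw [real_inner_self_eq_norm_sq, hω]; norm_num
    set q : Ed d → ℝ := Dd v ω with hqdef
    set hh : ℝ → ℝ := fun t => v (t • ω) with hhdef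
    set p : ℝ → ℝ := fun t => q (t • ω) with hpdef
    have hhd : ∀ t, HasDerivAt hh (p t) t := fun t => by
      have := (hd1 (t • ω)).hasFDerivAt.comp_hasDerivAt t
        (by simpa using (hasDerivAt_id t).smul_const ω : HasDerivAt (fun t : ℝ => t • ω) ω t)
      exact this
    have hq1 : ContDiff ℝ 1 q := contDiff_Dd h.smooth ω
    have hlap : ∀ x, fderiv ℝ q x ω = v x ^ 3 - v x := by
      intro x
      rw [← h.eqn x, lap_eq h.smooth, show fderiv ℝ q x ω = Dd q ω x from rfl, Dd_eq_sum]
      refine Finset.sum_congr rfl fun i _ => ?_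
      rw [show (fun y => pd v i y) = fun y => q y * ⟪ω, bb i⟫_ℝ from
        funext fun y => hgrad y (bb i), fderiv_mul_const (hq1.differentiable one_ne_zero x),
        real_inner_comm]
      simp [pd]
    have hpd' : ∀ t, HasDerivAt p (hh t ^ 3 - hh t) t := fun t => by
      have := (hq1.differentiable one_ne_zero (t • ω)).hasFDerivAt.comp_hasDerivAt t
        (by simpa using (hasDerivAt_id t).smul_const ω : HasDerivAt (fun t : ℝ => t • ω) ω t)
      rw [hlap] at this
      exact this
    have hvh : ∀ x, v x = hh ⟪ω, x⟫_ℝ := eq_of_gradient hd1 hω hgrad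
    have hqp : ∀ x, q x = p ⟪ω, x⟫_ℝ := by
      intro x
      have h1 : HasDerivAt (fun s : ℝ => hh (⟪ω, x⟫_ℝ + s)) (p ⟪ω, x⟫_ℝ) 0 :=
        (hhd _).comp_const_add _ _ |>.congr_deriv (by simp)
      have h2 : HasDerivAt (fun s : ℝ => v (x + s • ω)) (q x) 0 := by
        have := hasDerivAt_line hd1 x ω 0
        simpa using this
      refine h2.unique (h1.congr_of_eventuallyEq (Eventually.of_forall fun s => ?_))
      show v (x + s • ω) = hh (⟪ω, x⟫_ℝ + s)
      rw [hvh, inner_add_right, real_inner_smul_right, hωω, mul_one]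
    have hsm : StrictMono hh := strictMono_of_hasDerivAt_pos hhd fun t => hqpos _
    have hbd : ∀ t, |hh t| ≤ 1 := fun t => h.bdd _
    set b := ⨆ t, hh t with hbdef
    set a := ⨅ t, hh t with hadef
    have hbA : BddAbove (Set.range hh) :=
      ⟨1, by rintro _ ⟨t, rfl⟩; exact (abs_le.1 (hbd t)).2⟩
    have hbB : BddBelow (Set.range hh) :=
      ⟨-1, by rintro _ ⟨t, rfl⟩; exact (abs_le.1 (hbd t)).1⟩
    have htop : Tendsto hh atTop (𝓝 b) := tendsto_atTop_ciSup hsm.monotone hbA
    have hbot : Tendsto hh atBot (𝓝 a) := tendsto_atBot_ciInf hsm.monotone hbB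
    have hab : a < b :=
      lt_of_le_of_lt (ciInf_le hbB 0) (lt_of_lt_of_le (hsm one_pos) (le_ciSup hbA 1))
    set E : ℝ := p 0 ^ 2 / 2 - (1 - hh 0 ^ 2) ^ 2 / 4 with hEdef
    have hE : ∀ t, p t ^ 2 / 2 - (1 - hh t ^ 2) ^ 2 / 4 = E := by
      intro t
      have hdE : ∀ s, HasDerivAt (fun s => p s ^ 2 / 2 - (1 - hh s ^ 2) ^ 2 / 4) 0 s := fun s => by
        refine ((((hpd' s).pow 2).div_const 2).sub
          (((((hhd s).pow 2).const_sub 1).pow 2).div_const 4)).congr_deriv ?_
        simp; ring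
      exact is_const_of_deriv_eq_zero (fun s => (hdE s).differentiableAt)
        (fun s => (hdE s).deriv) t 0
    have hpsq : ∀ t, p t = √(2 * (E + (1 - hh t ^ 2) ^ 2 / 4)) := fun t => by
      rw [← hE t, show 2 * (p t ^ 2 / 2 - (1 - hh t ^ 2) ^ 2 / 4 + (1 - hh t ^ 2) ^ 2 / 4)
        = p t ^ 2 by ring, Real.sqrt_sq (hqpos _).le]
    have hptop : Tendsto p atTop (𝓝 (√(2 * (E + (1 - b ^ 2) ^ 2 / 4)))) := by
      rw [funext hpsq]
      exact (((((htop.pow 2).const_sub 1).pow 2).div_const 4).const_add E).const_mul 2 |>.sqrt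
    have hpbot : Tendsto p atBot (𝓝 (√(2 * (E + (1 - a ^ 2) ^ 2 / 4)))) := by
      rw [funext hpsq]
      exact (((((hbot.pow 2).const_sub 1).pow 2).div_const 4).const_add E).const_mul 2 |>.sqrt
    have hnegd : ∀ {F F' : ℝ → ℝ}, (∀ t, HasDerivAt F (F' t) t) →
        ∀ t, HasDerivAt (fun t => F (-t)) (-F' (-t)) t := fun {F F'} hF t =>
      ((hF (-t)).comp t (hasDerivAt_neg t)).congr_deriv (by ring)
    have hLb : √(2 * (E + (1 - b ^ 2) ^ 2 / 4)) = 0 := limit_deriv_eq_zero hhd htop hptop
    have hfb : b ^ 3 - b = 0 :=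
      limit_deriv_eq_zero hpd' hptop ((htop.pow 3).sub htop)
    have hLa : √(2 * (E + (1 - a ^ 2) ^ 2 / 4)) = 0 := by
      have := limit_deriv_eq_zero (hnegd hhd) (hbot.comp tendsto_neg_atTop_atBot)
        (hpbot.comp tendsto_neg_atTop_atBot).neg
      linarith
    have hfa : a ^ 3 - a = 0 := by
      have := limit_deriv_eq_zero (hnegd hpd') (hpbot.comp tendsto_neg_atTop_atBot)
        ((((hbot.pow 3).sub hbot)).comp tendsto_neg_atTop_atBot).neg
      linarith
    have hWb : 0 ≤ E + (1 - b ^ 2) ^ 2 / 4 :=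
      ge_of_tendsto' ((((htop.pow 2).const_sub 1).pow 2).div_const 4 |>.const_add E) fun t => by
        rw [← hE t]; linarith [sq_nonneg (p t)]
    have hWa : 0 ≤ E + (1 - a ^ 2) ^ 2 / 4 :=
      ge_of_tendsto' ((((hbot.pow 2).const_sub 1).pow 2).div_const 4 |>.const_add E) fun t => by
        rw [← hE t]; linarith [sq_nonneg (p t)]
    rw [Real.sqrt_eq_zero (by linarith)] at hLb
    rw [Real.sqrt_eq_zero (by linarith)] at hLa
    have hroots : ∀ {s : ℝ}, s ^ 3 - s = 0 → s = 0 ∨ s ^ 2 = 1 := fun {s} hs => by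
      have : s * (s ^ 2 - 1) = 0 := by rw [← hs]; ring
      rcases mul_eq_zero.1 this with h1 | h1
      · exact Or.inl h1
      · exact Or.inr (by linarith)
    have hE0 : E = 0 := by
      rcases hroots hfb with hb0 | hb1
      · rcases hroots hfa with ha0' | ha1
        · exact absurd (ha0'.trans hb0.symm) hab.ne
        · rw [hb0] at hLb; rw [ha1] at hLa; linarith
      · rw [hb1] at hLb; linarith
    have henergy : ∀ x, energy v x ≤ M * q x := by
      intro x
      have hG : G v v x = q x * q x := by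
        have h1 : ∑ i, ⟪ω, bb i⟫_ℝ ^ 2 = 1 := by
          show ∑ i, ⟪ω, EuclideanSpace.basisFun (Fin d) ℝ i⟫_ℝ ^ 2 = 1
          rw [(EuclideanSpace.basisFun (Fin d) ℝ).sum_sq_inner_left ω, hω]; norm_num
        calc G v v x = ∑ i, q x * q x * ⟪ω, bb i⟫_ℝ ^ 2 :=
              Finset.sum_congr rfl fun i _ => by
                rw [show pd v i x = q x * ⟪ω, bb i⟫_ℝ from hgrad x (bb i)]; ring
          _ = q x * q x := by rw [← Finset.mul_sum, h1, mul_one]
      have hq2 := hE ⟪ω, x⟫_ℝ
      rw [← hvh x, ← hqp x, hE0] at hq2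
      have hqM : q x ≤ M := by
        have := abs_Dd_le (hM v h) ω x
        rw [hω, mul_one] at this
        exact le_trans (le_abs_self _) this
      calc energy v x = q x * q x := by rw [energy, hG]; linarith
        _ ≤ M * q x := mul_le_mul_of_nonneg_right hqM (hqpos x).le
    have iχq : Integrable fun x => χ x * q x :=
      integrable_off (hχ.continuous.mul hq1.continuous) hχc fun x hx => by
        show χ x * q x = 0
        rw [image_eq_zero_of_notMem_tsupport hx, zero_mul]
    have iχe : Integrable fun x => χ x * energy v x :=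
      integrable_off (hχ.continuous.mul (((continuous_G h.smooth (by norm_num) h.smooth
        (by norm_num)).div_const 2).add (((continuous_const.sub
          (h.smooth.continuous.pow 2)).pow 2).div_const 4))) hχc fun x hx => by
        show χ x * _ = 0
        rw [image_eq_zero_of_notMem_tsupport hx, zero_mul]
    have ivχ : Integrable fun x => v x * fderiv ℝ χ x ω :=
      integrable_off (hd1.continuous.mul ((hχ.continuous_fderiv one_ne_zero).clm_apply
        continuous_const)) hχc fun x hx => by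
        show v x * _ = 0
        rw [fderiv_of_notMem_tsupport ℝ hx]; simp
    have hibp : ∫ x, χ x * q x = -∫ x, v x * fderiv ℝ χ x ω := by
      have := integral_mul_fderiv_eq_neg_fderiv_mul_of_integrable (μ := (volume : Measure (Ed d)))
        (f := χ) (g := v) (v := ω)
        (integrable_off (((hχ.continuous_fderiv one_ne_zero).clm_apply continuous_const).mul
          hd1.continuous) hχc fun x hx => by
            show _ * v x = 0
            rw [fderiv_of_notMem_tsupport ℝ hx]; simp)
        iχq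
        (integrable_off (hχ.continuous.mul hd1.continuous) hχc fun x hx => by
          show χ x * v x = 0
          rw [image_eq_zero_of_notMem_tsupport hx, zero_mul])
        (fun x _ => hχ.differentiable one_ne_zero x) (fun x _ => hd1 x)
      rw [show (fun x => v x * fderiv ℝ χ x ω) = fun x => fderiv ℝ χ x ω * v x from
        funext fun x => mul_comm _ _]
      exact this
    calc ∫ x, χ x * energy v x ≤ ∫ x, M * (χ x * q x) :=
          integral_mono iχe (iχq.const_mul M) fun x =>
            le_trans (mul_le_mul_of_nonneg_left (henergy x) (hχ0 x)) (le_of_eq (by ring))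
      _ = M * ∫ x, χ x * q x := integral_const_mul _ _
      _ ≤ M * ∫ x, var1 χ x := by
          refine mul_le_mul_of_nonneg_left ?_ hM0
          rw [hibp, ← integral_neg]
          refine integral_mono ivχ.neg (integrable_var1 hχ hχc) fun x => ?_
          refine le_trans (neg_le_abs _) ?_
          rw [abs_mul]
          refine le_trans (mul_le_mul_of_nonneg_right (h.bdd x) (abs_nonneg _)) ?_
          rw [one_mul, show fderiv ℝ χ x ω = Dd χ ω x from rfl, Dd_eq_sum]
          refine (Finset.abs_sum_le_sum_abs _ _).trans (Finset.sum_le_sum fun i _ => ?_)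
          rw [abs_mul]
          refine mul_le_of_le_one_left (abs_nonneg _) ?_
          exact (abs_real_inner_le_norm _ _).trans (by rw [norm_bb, hω, mul_one])

end Vale.Agent.P134.Periodic
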