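/-
P134 (De Giorgi): energy comparison with the profile at the top.
-/
import Vale.Agent.P134.Limit.OneDim

open MeasureTheory Filter Topology
open scoped InnerProductSpace

noncomputable section

namespace Vale.Agent.P134.Periodic

variable {d : ℕ}

/-- Differentiation of a moving test integral. -/
lemma hasDerivAt_moving {g h : Ed d → ℝ} (hg : ContDiff ℝ 1 g) (hh : Continuous h)
    {K : Set (Ed d)} (hK : IsCompact K) (h0 : ∀ x ∉ K, h x = 0) (e : Ed d) (t : ℝ) :
    HasDerivAt (fun t : ℝ => ∫ x, g (x + t • e) * h x) (∫ x, Dd g e (x + t • e) * h x) t := by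
  have hgc : Continuous (Dd g e) := (hg.continuous_fderiv one_ne_zero).clm_apply continuous_const
  have hc : Continuous fun p : ℝ × Ed d => Dd g e (p.2 + p.1 • e) * h p.2 :=
    (hgc.comp (continuous_snd.add (continuous_fst.smul continuous_const))).mul
      (hh.comp continuous_snd)
  obtain ⟨B, hB⟩ := ((isCompact_closedBall t 1).prod hK).exists_bound_of_continuousOn hc.continuousOn
  refine (hasDerivAt_integral_of_dominated_loc_of_deriv_le (μ := volume)
    (F := fun (s : ℝ) x => g (x + s • e) * h x)
    (F' := fun (s : ℝ) x => Dd g e (x + s • e) * h x) (bound := K.indicator fun _ => B)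
    (Metric.ball_mem_nhds t one_pos) (Eventually.of_forall fun s =>
      ((hg.continuous.comp (continuous_id.add continuous_const)).mul hh).aestronglyMeasurable)
    ?_ ?_ (Eventually.of_forall fun x s hs => ?_) ?_ (Eventually.of_forall fun x s _ => ?_)).2
  · exact integrable_off ((hg.continuous.comp (continuous_id.add continuous_const)).mul hh) hK
      fun x hx => by
        show g (x + t • e) * h x = 0
        rw [h0 x hx, mul_zero]
  · exact ((hgc.comp (continuous_id.add continuous_const)).mul hh).aestronglyMeasurable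
  · by_cases hx : x ∈ K
    · rw [Set.indicator_of_mem hx]
      exact hB (s, x) ⟨Metric.ball_subset_closedBall hs, hx⟩
    · rw [Set.indicator_of_notMem hx, h0 x hx]; simp
  · exact ((continuous_const : Continuous fun _ : Ed d => B).continuousOn.integrableOn_compact
      hK).integrable_indicator hK.isClosed.measurableSet
  · exact (hasDerivAt_line (hg.differentiable one_ne_zero) x e s).mul_const _

lemma contDiff_energy {u : Ed d → ℝ} (hu : ContDiff ℝ 2 u) : ContDiff ℝ 1 (energy u) :=
  ((ContDiff.sum fun i _ => (contDiff_pd hu i).mul (contDiff_pd hu i)).div_const 2).add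
    (((contDiff_const.sub ((hu.of_le (by norm_num)).pow 2)).pow 2).div_const 4)

lemma continuous_energy {u : Ed d → ℝ} (hu : ContDiff ℝ 2 u) : Continuous (energy u) :=
  (contDiff_energy hu).continuous

lemma Dd_pd_comm {u : Ed d → ℝ} (hu : ContDiff ℝ 2 u) (e : Ed d) (i : Fin d) (x : Ed d) :
    Dd (fun y => pd u i y) e x = pd (Dd u e) i x := by
  have hd : DifferentiableAt ℝ (fderiv ℝ u) x :=
    ((hu.fderiv_right (m := 1) (by norm_num)).differentiable (by norm_num)) x
  show fderiv ℝ (fun y => fderiv ℝ u y (bb i)) x e = fderiv ℝ (fun y => fderiv ℝ u y e) x (bb i)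
  rw [fderiv_clm_apply hd (differentiableAt_const _),
    fderiv_clm_apply hd (differentiableAt_const _)]
  simp only [ContinuousLinearMap.add_apply, ContinuousLinearMap.comp_apply,
    ContinuousLinearMap.flip_apply, fderiv_const_apply, ContinuousLinearMap.zero_apply, map_zero,
    zero_add]
  exact (hu.contDiffAt.isSymmSndFDerivAt (by simp)).eq _ _

/-- First variation of the energy along translations. -/
lemma integral_Dd_energy {v : Ed d → ℝ} (h : Sol v) (e : Ed d) {χ : Ed d → ℝ}
    (hχ : ContDiff ℝ 1 χ) (hc : HasCompactSupport χ) :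
    ∫ x, Dd (energy v) e x * χ x = -∫ x, Dd v e x * G χ v x := by
  set φ : Ed d → ℝ := fun x => χ x * Dd v e x with hφdef
  have hD := contDiff_Dd h.smooth e
  have hφ : ContDiff ℝ 1 φ := hχ.mul hD
  have hφc : HasCompactSupport φ := hc.mul_right
  have h0 := ibp hφ hφc h.smooth
  simp only [h.eqn] at h0
  have hpt : ∀ x, Dd (energy v) e x
      = G (Dd v e) v x + (v x ^ 3 - v x) * Dd v e x := by
    intro x
    have hv : HasFDerivAt v (fderiv ℝ v x) x :=
      (h.smooth.differentiable (by norm_num) x).hasFDerivAt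
    have hp : ∀ i, HasFDerivAt (fun y => pd v i y) (fderiv ℝ (fun y => pd v i y) x) x := fun i =>
      ((contDiff_pd h.smooth i).differentiable one_ne_zero x).hasFDerivAt
    have h1 : HasFDerivAt (fun y => ∑ i, pd v i y * pd v i y)
        (∑ i, (pd v i x • fderiv ℝ (fun y => pd v i y) x
          + pd v i x • fderiv ℝ (fun y => pd v i y) x)) x :=
      HasFDerivAt.fun_sum fun i _ => (hp i).mul (hp i)
    have h2 := (h1.mul_const (2 : ℝ)⁻¹).add
      ((((hv.pow 2).const_sub 1).pow 2).mul_const (4 : ℝ)⁻¹)
    have he : energy v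
        = fun y => (∑ i, pd v i y * pd v i y) * 2⁻¹ + (1 - v y ^ 2) ^ 2 * 4⁻¹ := by
      funext y; simp only [energy, G, div_eq_mul_inv]
    rw [Dd, he, show fderiv ℝ (fun y => (∑ i, pd v i y * pd v i y) * 2⁻¹
      + (1 - v y ^ 2) ^ 2 * 4⁻¹) x = _ from h2.fderiv]
    have hc' : ∀ i, fderiv ℝ (fun y => pd v i y) x e = pd (Dd v e) i x :=
      fun i => Dd_pd_comm h.smooth e i x
    simp [G, Dd, Finset.sum_add_distrib, hc']
    simp only [mul_comm (pd v _ x)]
    ring
  have iA : Integrable fun x => φ x * (v x ^ 3 - v x) :=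
    integrable_off (hφ.continuous.mul ((h.smooth.continuous.pow 3).sub h.smooth.continuous)) hφc
      fun x hx => by
        show φ x * _ = 0
        rw [image_eq_zero_of_notMem_tsupport hx, zero_mul]
  have iB : Integrable (G φ v) :=
    integrable_off (continuous_G hφ one_ne_zero h.smooth (by norm_num)) hφc
      fun x hx => G_zero_off_left hx v
  have iC : Integrable fun x => Dd v e x * G χ v x :=
    integrable_off (hD.continuous.mul (continuous_G hχ one_ne_zero h.smooth (by norm_num))) hc
      fun x hx => by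
        show _ * G χ v x = 0
        rw [G_zero_off_left hx, mul_zero]
  have hG : ∀ x, G φ v x = χ x * G (Dd v e) v x + Dd v e x * G χ v x := by
    intro x
    simp only [G, hφdef, Finset.mul_sum, ← Finset.sum_add_distrib]
    refine Finset.sum_congr rfl fun i _ => ?_
    rw [pd_mul (hχ.differentiable one_ne_zero x) (hD.differentiable one_ne_zero x)]
    ring
  have e1 : (fun x => Dd (energy v) e x * χ x)
      = fun x => (φ x * (v x ^ 3 - v x) + G φ v x) - Dd v e x * G χ v x := by
    funext x; rw [hG, hpt]; simp only [hφdef]; ring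
  have iAB : Integrable fun x => φ x * (v x ^ 3 - v x) + G φ v x := iA.add iB
  rw [e1, integral_sub iAB iC, integral_add iA iB, h0]
  ring

lemma abs_G_le {χ v : Ed d → ℝ} {M : ℝ} (hM : ∀ x, ‖fderiv ℝ v x‖ ≤ M) (x : Ed d) :
    |G χ v x| ≤ M * var1 χ x := by
  rw [var1, Finset.mul_sum]
  refine (Finset.abs_sum_le_sum_abs _ _).trans (Finset.sum_le_sum fun i _ => ?_)
  rw [abs_mul, mul_comm M]
  exact mul_le_mul_of_nonneg_left (abs_pd_le hM i x) (abs_nonneg _)

/-- The energy at a point of the flow is controlled by the energy further up. -/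
lemma energy_le_slide {u : Ed d → ℝ} (h : Sol u) {e : Ed d} (hmono : ∀ x, 0 < Dd u e x)
    {M : ℝ} (hM0 : 0 ≤ M) (hM : ∀ v : Ed d → ℝ, Sol v → ∀ x, ‖fderiv ℝ v x‖ ≤ M)
    {χ : Ed d → ℝ} (hχ : ContDiff ℝ 1 χ) (hc : HasCompactSupport χ) (k : ℕ) :
    ∫ x, χ x * energy u x
      ≤ (∫ x, χ x * energy (slide u e k) x) + 2 * M * ∫ x, var1 χ x := by
  set Ψ : ℝ → ℝ := fun t => ∫ x, energy u (x + t • e) * χ x with hΨ
  set Θ : ℝ → ℝ := fun t => ∫ x, u (x + t • e) * var1 χ x with hΘ
  have hΨd : ∀ t, HasDerivAt Ψ (∫ x, Dd (energy u) e (x + t • e) * χ x) t := fun t =>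
    hasDerivAt_moving (contDiff_energy h.smooth) hχ.continuous hc
      (fun _ hx => image_eq_zero_of_notMem_tsupport hx) e t
  have hΘd : ∀ t, HasDerivAt Θ (∫ x, Dd u e (x + t • e) * var1 χ x) t := fun t =>
    hasDerivAt_moving (h.smooth.of_le (by norm_num)) (continuous_var1 hχ) hc
      (fun _ hx => var1_zero_off hx) e t
  have htr : ∀ T : Ed d, energy (fun y => u (y + T)) = fun y => energy u (y + T) := fun T => by
    funext y; simp only [energy, G, pd_translate]
  have hnn : ∀ t : ℝ, 0 ≤ (∫ x, Dd (energy u) e (x + t • e) * χ x)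
      + M * ∫ x, Dd u e (x + t • e) * var1 χ x := by
    intro t
    have hv := h.translate (t • e)
    have h1 := integral_Dd_energy hv e hχ hc
    simp only [htr, Dd_translate] at h1
    rw [h1, ← integral_const_mul, neg_add_eq_sub, sub_nonneg]
    have hDc : Continuous fun x => Dd u e (x + t • e) :=
      (continuous_Dd h.smooth e).comp (continuous_id.add continuous_const)
    refine integral_mono (integrable_off (hDc.mul (continuous_G hχ one_ne_zero hv.smooth
        (by norm_num))) hc fun x hx => by
          show _ * G χ _ x = 0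
          rw [G_zero_off_left hx, mul_zero])
      ((integrable_off (hDc.mul (continuous_var1 hχ)) hc fun x hx => by
          show _ * var1 χ x = 0
          rw [var1_zero_off hx, mul_zero]).const_mul M) fun x => ?_
    calc Dd u e (x + t • e) * G χ (fun y => u (y + t • e)) x
        ≤ Dd u e (x + t • e) * (M * var1 χ x) :=
          mul_le_mul_of_nonneg_left (le_trans (le_abs_self _) (abs_G_le (hM _ hv) x))
            (hmono _).le
      _ = _ := by ring
  have hmon : Monotone fun t => Ψ t + M * Θ t :=
    monotone_of_hasDerivAt_nonneg (fun t => (hΨd t).add ((hΘd t).const_mul M)) hnn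
  have hle := hmon (Nat.cast_nonneg k : (0 : ℝ) ≤ k)
  have hΘb : ∀ t : ℝ, |Θ t| ≤ ∫ x, var1 χ x := by
    intro t
    refine abs_integral_le_integral_abs.trans (integral_mono_of_nonneg
      (Eventually.of_forall fun x => abs_nonneg _) (integrable_var1 hχ hc)
      (Eventually.of_forall fun x => ?_))
    simp only [abs_mul, abs_of_nonneg (var1_nonneg χ x)]
    exact mul_le_of_le_one_left (var1_nonneg χ x) (h.bdd _)
  have eΨ0 : Ψ 0 = ∫ x, χ x * energy u x := by simp [hΨ, mul_comm]
  have eΨk : Ψ k = ∫ x, χ x * energy (slide u e k) x := by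
    unfold slide
    simp [hΨ, htr, mul_comm]
  simp only at hle
  rw [eΨ0, eΨk] at hle
  have a1 := (abs_le.1 (hΘb 0)).1
  have a2 := (abs_le.1 (hΘb k)).2
  have b1 := mul_le_mul_of_nonneg_left a1 hM0
  have b2 := mul_le_mul_of_nonneg_left a2 hM0
  linarith

end Vale.Agent.P134.Periodic
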