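/-
P134 (De Giorgi): nonnegative weak solutions of the linearised equation vanishing at a point
vanish identically; one family of test functions suffices.
-/
import Vale.Agent.P134.Stat.Form
import Vale.Agent.P100.Weighted.Rescale

open MeasureTheory Filter Topology Metric
open scoped InnerProductSpace
open Vale.Agent.P100

noncomputable section

namespace Vale.Agent.P134.Periodic

variable {d : ℕ}

lemma contDiff_two_avgPot : ContDiff ℝ 2 (avgPot : Ed d → ℝ) := by
  have hd : ∀ t : ℝ, HasDerivAt (fun s => max s 0 ^ 4) (4 * max t 0 ^ 3) t := fun t => by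
    simpa using hasDerivAt_comp_pos (g := fun s => s ^ 4) (g' := fun s => 4 * s ^ 3)
      (fun s => by simpa using hasDerivAt_pow 4 s) (by simp) t
  have h2 : ContDiff ℝ 2 fun t : ℝ => max t 0 ^ 4 := by
    rw [show (2 : WithTop ℕ∞) = 1 + 1 from rfl, contDiff_succ_iff_deriv]
    refine ⟨fun t => (hd t).differentiableAt, fun h => absurd h (by decide), ?_⟩
    rw [funext fun t => (hd t).deriv]
    exact contDiff_const.mul (Weighted.contDiff_one_pos_pow 1)
  exact (h2.comp (contDiff_const.sub (contDiff_norm_sq ℝ))).div_const _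

lemma lap_avgPot (y : Ed d) :
    Laplacian.laplacian avgPot y = -(d : ℝ) * avgW y - fderiv ℝ avgW y y := by
  rw [lap_eq contDiff_two_avgPot]
  have e : ∀ i : Fin d, (fun z => pd avgPot i z)
      = fun z => -(avgW z * ⟪bb i, z⟫_ℝ) := fun i => by
    funext z; rw [pd, fderiv_avgPot, real_inner_comm]; ring
  have hd : ∀ i : Fin d, fderiv ℝ (fun z => pd avgPot i z) y (bb i)
      = -(avgW y + ⟪bb i, y⟫_ℝ * pd avgW i y) := fun i => by
    have hW : DifferentiableAt ℝ (avgW : Ed d → ℝ) y :=
      Weighted.contDiff_two_avgW.differentiable (by norm_num) y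
    have hI : DifferentiableAt ℝ (fun z : Ed d => ⟪bb i, z⟫_ℝ) y :=
      (innerSL ℝ (bb i)).differentiableAt
    rw [e i, fderiv_fun_neg, fderiv_fun_mul hW hI,
      show fderiv ℝ (fun z : Ed d => ⟪bb i, z⟫_ℝ) y = innerSL ℝ (bb i) from
        (innerSL ℝ (bb i)).fderiv]
    simp [pd, real_inner_self_eq_norm_sq, norm_bb]
  rw [Finset.sum_congr rfl fun i _ => hd i, Finset.sum_neg_distrib, Finset.sum_add_distrib,
    show fderiv ℝ avgW y y = Dd avgW y y from rfl, Dd_eq_sum]
  simp
  ring

lemma avgPot_le (y : Ed d) : avgPot y ≤ avgW y / 8 := by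
  unfold avgPot avgW
  refine div_le_div_of_nonneg_right ?_ (by norm_num)
  have h0 : 0 ≤ max (1 - ‖y‖ ^ 2) 0 := le_max_right _ _
  have h1 : max (1 - ‖y‖ ^ 2) 0 ≤ 1 := max_le (by nlinarith [norm_nonneg y]) zero_le_one
  calc max (1 - ‖y‖ ^ 2) 0 ^ 4 = max (1 - ‖y‖ ^ 2) 0 ^ 3 * max (1 - ‖y‖ ^ 2) 0 := by ring
    _ ≤ _ := mul_le_of_le_one_right (pow_nonneg h0 3) h1

/-- The test functions: rescaled potentials of balls. -/
def tst (x₀ : Ed d) (R : ℝ) (z : Ed d) : ℝ := avgPot (-(R⁻¹ • x₀) + R⁻¹ • z)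

lemma tst_eq (x₀ : Ed d) (R : ℝ) (z : Ed d) : tst x₀ R z = avgPot (R⁻¹ • (z - x₀)) := by
  rw [tst, smul_sub, neg_add_eq_sub]

lemma contDiff_tst (x₀ : Ed d) (R : ℝ) : ContDiff ℝ 2 (tst x₀ R) :=
  contDiff_two_avgPot.comp (contDiff_const.add (contDiff_const_smul R⁻¹))

lemma one_le_norm_scaled {x₀ z : Ed d} {R : ℝ} (hR : 0 < R) (hz : z ∉ closedBall x₀ R) :
    1 ≤ ‖R⁻¹ • (z - x₀)‖ := by
  rw [mem_closedBall, dist_eq_norm, not_le] at hz
  rw [norm_smul, Real.norm_eq_abs, abs_inv, abs_of_pos hR, inv_mul_eq_div, one_le_div hR]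
  linarith

lemma tst_zero_off {x₀ z : Ed d} {R : ℝ} (hR : 0 < R) (hz : z ∉ closedBall x₀ R) :
    tst x₀ R z = 0 := by
  rw [tst_eq]; exact avgPot_eq_zero (one_le_norm_scaled hR hz)

lemma hasCompactSupport_tst (x₀ : Ed d) {R : ℝ} (hR : 0 < R) : HasCompactSupport (tst x₀ R) :=
  HasCompactSupport.intro (isCompact_closedBall x₀ R) fun _ hz => tst_zero_off hR hz

lemma lap_tst (x₀ : Ed d) (R : ℝ) (z : Ed d) :
    Laplacian.laplacian (tst x₀ R) z
      = R⁻¹ ^ 2 * Laplacian.laplacian avgPot (R⁻¹ • (z - x₀)) := by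
  have e : -(R⁻¹ • x₀) + R⁻¹ • z = R⁻¹ • (z - x₀) := by rw [smul_sub]; abel
  have := Weighted.laplacian_affine (f := avgPot) (x₀ := -(R⁻¹ • x₀)) (x := z) (c := R⁻¹) 1
    contDiff_two_avgPot.contDiffAt
  rw [e] at this
  simp only [one_mul] at this
  exact this

/-- A nonnegative weak solution of `Δw = c w` vanishing at one point vanishes identically. -/
lemma eq_zero_of_weak {w c : Ed d → ℝ} (hw : Continuous w) (hw0 : ∀ x, 0 ≤ w x)
    (hc : Continuous c) {C : ℝ} (hcb : ∀ x, |c x| ≤ C)
    {x₀ : Ed d} (hweak : ∀ R, 0 < R → ∫ x, w x * Lop c (tst x₀ R) x = 0)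
    (h0 : w x₀ = 0) (x : Ed d) : w x = 0 := by
  have hC0 : 0 ≤ C := le_trans (abs_nonneg _) (hcb x₀)
  have hW1 : ContDiff ℝ 1 (avgW : Ed d → ℝ) := Weighted.contDiff_two_avgW.of_le (by norm_num)
  have hWd : ∀ y : Ed d, 1 < ‖y‖ → fderiv ℝ avgW y = 0 := fun y hy => by
    refine fderiv_of_notMem_tsupport ℝ (notMem_tsupport_iff_eventuallyEq.2 ?_)
    filter_upwards [(continuous_norm.tendsto y).eventually (eventually_gt_nhds hy)] with z hz
    simpa using avgW_eq_zero hz.le
  set M : ℝ → ℝ := avg w x₀ with hMdef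
  have hMc : Continuous M := by
    have h1 : Continuous fun R : ℝ => ∫ y, w (x₀ + R • y) • avgW y :=
      (Weighted.continuous_kernel hw continuous_avgW hasCompactSupport_avgW).comp
        (continuous_const.prodMk continuous_id)
    exact h1
  have hM0 : ∀ R, 0 ≤ M R := fun R => integral_nonneg fun y => mul_nonneg (hw0 _) (avgW_nonneg y)
  set H : ℝ → ℝ := fun R => ∫ z, w z * avgW (R⁻¹ • (z - x₀)) with hHdef
  have hMH : ∀ R, 0 < R → M R = (R ^ d)⁻¹ * H R := by
    intro R hR
    have h1 : H R = |R ^ d| • M R :=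
      Weighted.integral_kernel (f := w) (ψ := avgW) x₀ hR.ne'
    rw [h1, abs_of_pos (pow_pos hR d), smul_eq_mul, ← mul_assoc,
      inv_mul_cancel₀ (pow_pos hR d).ne', one_mul]
  -- differentiation in the radius
  have hH' : ∀ R, 0 < R → HasDerivAt H
      (-(R⁻¹) * ∫ z, w z * fderiv ℝ avgW (R⁻¹ • (z - x₀)) (R⁻¹ • (z - x₀))) R := by
    intro R hR
    set F' : ℝ → Ed d → ℝ :=
      fun t z => w z * (-(t⁻¹) * fderiv ℝ avgW (t⁻¹ • (z - x₀)) (t⁻¹ • (z - x₀))) with hF'
    have hdc := hW1.continuous_fderiv one_ne_zero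
    have hF'c : ContinuousOn (fun p : ℝ × Ed d => F' p.1 p.2)
        (Set.Icc (R / 2) (2 * R) ×ˢ closedBall x₀ (2 * R)) := by
      have hi : ContinuousOn (fun p : ℝ × Ed d => p.1⁻¹)
          (Set.Icc (R / 2) (2 * R) ×ˢ closedBall x₀ (2 * R)) :=
        continuous_fst.continuousOn.inv₀ fun p hp => by
          have := hp.1.1; exact ne_of_gt (by linarith)
      have hy : ContinuousOn (fun p : ℝ × Ed d => p.1⁻¹ • (p.2 - x₀))
          (Set.Icc (R / 2) (2 * R) ×ˢ closedBall x₀ (2 * R)) :=
        hi.smul (continuous_snd.sub continuous_const).continuousOn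
      exact ((hw.comp continuous_snd).continuousOn).mul
        (hi.neg.mul ((hdc.comp_continuousOn hy).clm_apply hy))
    obtain ⟨B, hB⟩ :=
      (isCompact_Icc.prod (isCompact_closedBall x₀ (2 * R))).exists_bound_of_continuousOn hF'c
    have hzero : ∀ t, 0 < t → t < 3 * R / 2 → ∀ z, z ∉ closedBall x₀ (2 * R) →
        (1 : ℝ) < ‖t⁻¹ • (z - x₀)‖ := by
      intro t ht ht' z hz
      rw [mem_closedBall, dist_eq_norm, not_le] at hz
      rw [norm_smul, Real.norm_eq_abs, abs_inv, abs_of_pos ht, inv_mul_eq_div, one_lt_div ht]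
      linarith
    have hcpt : ∀ t : ℝ, Continuous fun z => w z * avgW (t⁻¹ • (z - x₀)) := fun t =>
      hw.mul (continuous_avgW.comp ((continuous_id.sub continuous_const).const_smul t⁻¹))
    have hball : ball R (R / 2) ⊆ Set.Ioo (R / 2) (3 * R / 2) := by
      intro t ht
      rw [mem_ball, Real.dist_eq, abs_lt] at ht
      constructor <;> linarith [ht.1, ht.2]
    have key := (hasDerivAt_integral_of_dominated_loc_of_deriv_le (μ := volume)
      (F := fun (t : ℝ) z => w z * avgW (t⁻¹ • (z - x₀))) (F' := F')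
      (bound := (closedBall x₀ (2 * R)).indicator fun _ => B)
      (ball_mem_nhds R (half_pos hR)) (Eventually.of_forall fun t => (hcpt t).aestronglyMeasurable)
      ?_ ?_ ?_ ?_ ?_).2
    · refine key.congr_deriv ?_
      rw [← integral_const_mul]
      exact integral_congr_ae (Eventually.of_forall fun z => by simp only [hF']; ring)
    · refine integrable_off (hcpt R) (isCompact_closedBall x₀ (2 * R)) fun z hz => ?_
      rw [avgW_eq_zero (hzero R hR (by linarith) z hz).le, mul_zero]
    · have hy : Continuous fun z => R⁻¹ • (z - x₀) :=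
        (continuous_id.sub continuous_const).const_smul R⁻¹
      exact (hw.mul (continuous_const.mul ((hdc.comp hy).clm_apply hy))).aestronglyMeasurable
    · refine Eventually.of_forall fun z t ht => ?_
      have ht' := hball ht
      by_cases hz : z ∈ closedBall x₀ (2 * R)
      · rw [Set.indicator_of_mem hz]
        exact hB (t, z) ⟨⟨ht'.1.le, by linarith [ht'.2]⟩, hz⟩
      · rw [Set.indicator_of_notMem hz]
        simp [hF', hWd _ (hzero t (by linarith [ht'.1]) ht'.2 z hz)]
    · exact ((continuous_const : Continuous fun _ : Ed d => B).continuousOn.integrableOn_compact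
        (isCompact_closedBall _ _)).integrable_indicator measurableSet_closedBall
    · refine Eventually.of_forall fun z t ht => ?_
      have htpos : 0 < t := by linarith [(hball ht).1]
      have h1 : HasDerivAt (fun t : ℝ => t⁻¹ • (z - x₀)) ((-(t ^ 2)⁻¹) • (z - x₀)) t :=
        (hasDerivAt_inv htpos.ne').smul_const _
      have h2 := ((hW1.differentiable one_ne_zero _).hasFDerivAt.comp_hasDerivAt t h1).const_mul
        (w z)
      refine h2.congr_deriv ?_
      simp only [hF', map_smul, smul_eq_mul]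
      field_simp
  have hM' : ∀ R, 0 < R → ∃ D, HasDerivAt M D R ∧ D ≤ C / 8 * R * M R := by
    intro R hR
    have hR' := hR.ne'
    set ψ : Ed d → ℝ := fun z => avgPot (-(R⁻¹ • x₀) + R⁻¹ • z) with hψdef
    have hyz : ∀ z, -(R⁻¹ • x₀) + R⁻¹ • z = R⁻¹ • (z - x₀) := fun z => by
      rw [smul_sub]; abel
    have hψ : ContDiff ℝ 2 ψ :=
      contDiff_two_avgPot.comp (contDiff_const.add (contDiff_const_smul R⁻¹))
    have hout : ∀ z, z ∉ closedBall x₀ R → 1 ≤ ‖R⁻¹ • (z - x₀)‖ := fun z hz => by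
      rw [mem_closedBall, dist_eq_norm, not_le] at hz
      rw [norm_smul, Real.norm_eq_abs, abs_inv, abs_of_pos hR, inv_mul_eq_div, one_le_div hR]
      linarith
    have hψc : HasCompactSupport ψ := HasCompactSupport.intro (isCompact_closedBall x₀ R)
      fun z hz => by simp only [hψdef, hyz]; exact avgPot_eq_zero (hout z hz)
    have hlap : ∀ z, Laplacian.laplacian ψ z
        = R⁻¹ ^ 2 * Laplacian.laplacian avgPot (R⁻¹ • (z - x₀)) := fun z => by
      have := Weighted.laplacian_affine (f := avgPot) (x₀ := -(R⁻¹ • x₀)) (x := z) (c := R⁻¹) 1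
        contDiff_two_avgPot.contDiffAt
      simpa [hψdef, hyz] using this
    have hcy : ∀ {f : Ed d → ℝ}, Continuous f → Continuous fun z => f (R⁻¹ • (z - x₀)) :=
      fun hf => hf.comp ((continuous_id.sub continuous_const).const_smul R⁻¹)
    have hi : ∀ {f : Ed d → ℝ}, Continuous f → (∀ y, 1 ≤ ‖y‖ → f y = 0) →
        Integrable fun z => w z * f (R⁻¹ • (z - x₀)) := fun {f} hf hf0 =>
      integrable_off (hw.mul (hcy hf)) (isCompact_closedBall x₀ R) fun z hz => by
        show w z * f _ = 0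
        rw [hf0 _ (hout z hz), mul_zero]
    have iW := hi continuous_avgW fun y hy => avgW_eq_zero hy
    have hdWc : Continuous fun y : Ed d => fderiv ℝ avgW y y :=
      (hW1.continuous_fderiv one_ne_zero).clm_apply continuous_id
    have iD : Integrable fun z => w z * fderiv ℝ avgW (R⁻¹ • (z - x₀)) (R⁻¹ • (z - x₀)) := by
      refine hi (f := fun y => fderiv ℝ avgW y y) hdWc fun y hy => ?_
      rcases hy.lt_or_eq with h | h
      · simp [hWd y h]
      · have : IsLocalMin (avgW : Ed d → ℝ) y := Eventually.of_forall fun z => by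
          rw [avgW_eq_zero h.le]; exact avgW_nonneg z
        simp [this.fderiv_eq_zero]
    refine ⟨(R ^ d)⁻¹ * (-(R⁻¹)) * ((d : ℝ) * H R
        + ∫ z, w z * fderiv ℝ avgW (R⁻¹ • (z - x₀)) (R⁻¹ • (z - x₀))), ?_, ?_⟩
    · have h1 := (((hasDerivAt_pow d R).inv (pow_pos hR d).ne').mul (hH' R hR))
      have h2 : M =ᶠ[𝓝 R] fun t => (t ^ d)⁻¹ * H t :=
        Filter.eventually_of_mem (Ioi_mem_nhds hR) fun t ht => hMH t ht
      refine (h1.congr_deriv ?_).congr_of_eventuallyEq h2
      rcases Nat.eq_zero_or_pos d with hd | hd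
      · simp [hd]
      · obtain ⟨k, rfl⟩ := Nat.exists_eq_add_of_le' hd
        simp only [Nat.add_sub_cancel, Pi.inv_apply]
        field_simp
        ring
    · have hpot : ∫ z, w z * Laplacian.laplacian ψ z = ∫ z, c z * w z * ψ z := by
        have h1 : ∫ z, w z * Lop c ψ z = 0 := hweak R hR
        have j1 : Integrable fun z => w z * Laplacian.laplacian ψ z :=
          integrable_off (hw.mul (continuous_lap hψ)) hψc fun z hz => by
            show w z * _ = 0
            rw [lap_zero_off hψ hz, mul_zero]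
        have j2 : Integrable fun z => c z * w z * ψ z :=
          integrable_off ((hc.mul hw).mul hψ.continuous) hψc fun z hz => by
            show c z * w z * ψ z = 0
            rw [image_eq_zero_of_notMem_tsupport hz, mul_zero]
        have e : (fun z => w z * Lop c ψ z)
            = fun z => -(w z * Laplacian.laplacian ψ z) + c z * w z * ψ z := by
          funext z; simp only [Lop]; ring
        have j1' : Integrable fun z => -(w z * Laplacian.laplacian ψ z) := j1.neg
        rw [e, integral_add j1' j2, integral_neg] at h1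
        linarith
      have hsum : -((d : ℝ) * H R + ∫ z, w z * fderiv ℝ avgW (R⁻¹ • (z - x₀)) (R⁻¹ • (z - x₀)))
          = R ^ 2 * ∫ z, w z * Laplacian.laplacian ψ z := by
        rw [← integral_const_mul, ← integral_const_mul, ← integral_add (iW.const_mul (d : ℝ)) iD,
          ← integral_neg]
        refine integral_congr_ae (Eventually.of_forall fun z => ?_)
        simp only
        rw [hlap, lap_avgPot]
        field_simp
        ring
      have hle : ∫ z, c z * w z * ψ z ≤ C / 8 * H R := by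
        rw [← integral_const_mul]
        refine integral_mono_ae (integrable_off ((hc.mul hw).mul hψ.continuous) hψc fun z hz => by
            show c z * w z * ψ z = 0
            rw [image_eq_zero_of_notMem_tsupport hz, mul_zero]) (iW.const_mul _)
          (Eventually.of_forall fun z => ?_)
        have h1 : c z ≤ C := le_trans (le_abs_self _) (hcb z)
        have h2 : ψ z ≤ avgW (R⁻¹ • (z - x₀)) / 8 := by
          simp only [hψdef, hyz]; exact avgPot_le _
        calc c z * w z * ψ z ≤ C * w z * (avgW (R⁻¹ • (z - x₀)) / 8) :=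
              mul_le_mul (mul_le_mul_of_nonneg_right h1 (hw0 z)) h2 (avgPot_nonneg _)
                (mul_nonneg hC0 (hw0 z))
          _ = C / 8 * (w z * avgW (R⁻¹ • (z - x₀))) := by ring
      calc (R ^ d)⁻¹ * (-(R⁻¹)) * ((d : ℝ) * H R
            + ∫ z, w z * fderiv ℝ avgW (R⁻¹ • (z - x₀)) (R⁻¹ • (z - x₀)))
          = (R ^ d)⁻¹ * R⁻¹ * (R ^ 2 * ∫ z, w z * Laplacian.laplacian ψ z) := by
            rw [← hsum]; ring
        _ = (R ^ d)⁻¹ * R * ∫ z, c z * w z * ψ z := by rw [hpot]; field_simp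
        _ ≤ (R ^ d)⁻¹ * R * (C / 8 * H R) := mul_le_mul_of_nonneg_left hle (by positivity)
        _ = C / 8 * R * M R := by rw [hMH R hR]; ring
  -- Grönwall
  set g : ℝ → ℝ := fun R => M R * Real.exp (-(C / 16) * R ^ 2) with hgdef
  have hgd : ∀ R, 0 < R → ∃ D, HasDerivAt g D R ∧ D ≤ 0 := by
    intro R hR
    obtain ⟨D, hD, hle⟩ := hM' R hR
    refine ⟨_, hD.mul (((hasDerivAt_pow 2 R).const_mul (-(C / 16))).exp), ?_⟩
    have := mul_le_mul_of_nonneg_right hle (Real.exp_pos (-(C / 16) * R ^ 2)).le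
    push_cast
    nlinarith
  have hanti : AntitoneOn g (Set.Ici 0) := by
    refine antitoneOn_of_deriv_nonpos (convex_Ici 0)
      (hMc.mul (Real.continuous_exp.comp (continuous_const.mul (continuous_pow 2)))).continuousOn
      ?_ ?_
    all_goals intro R hR; rw [interior_Ici] at hR; obtain ⟨D, hD, hle⟩ := hgd R hR
    · exact hD.differentiableAt.differentiableWithinAt
    · rw [hD.deriv]; exact hle
  set R := 2 * ‖x - x₀‖ + 1 with hRdef
  have hR0 : 0 < R := by positivity
  have hMR : M R = 0 := by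
    have h1 := hanti (Set.self_mem_Ici) (Set.mem_Ici.2 hR0.le) hR0.le
    simp only [hgdef, hMdef, avg_zero, h0, zero_mul] at h1
    have h2 := mul_nonneg (hM0 R) (Real.exp_pos (-(C / 16) * R ^ 2)).le
    simp only [hMdef] at h2 ⊢
    exact (mul_eq_zero.1 (le_antisymm h1 h2)).resolve_right (Real.exp_pos _).ne'
  by_contra hne
  have hcont : Continuous fun y => w (x₀ + R • y) * avgW y := by
    have := continuous_avgW (n := d); fun_prop
  refine (hcont.integral_pos_of_hasCompactSupport_nonneg_nonzero hasCompactSupport_avgW.mul_left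
    (fun y => mul_nonneg (hw0 _) (avgW_nonneg y)) (x := R⁻¹ • (x - x₀)) ?_).ne' hMR
  rw [smul_smul, mul_inv_cancel₀ hR0.ne', one_smul, add_sub_cancel]
  refine mul_ne_zero hne (pow_ne_zero _ (ne_of_gt (lt_max_of_lt_left ?_)))
  have hlt : ‖R⁻¹ • (x - x₀)‖ < 1 := by
    rw [norm_smul, Real.norm_eq_abs, abs_inv, abs_of_pos hR0, inv_mul_lt_iff₀ hR0]
    linarith [norm_nonneg (x - x₀)]
  exact sub_pos.2 (pow_lt_one₀ (norm_nonneg _) hlt two_ne_zero)

/-- Weakly harmonic absolute derivatives force a constant sign. -/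
lemma sign_of_weak {v : Ed d → ℝ} (h : Sol v) (a : Ed d)
    (hw : ∀ x₀ R, 0 < R →
      ∫ x, |Dd v a x| * Lop (fun y => 3 * v y ^ 2 - 1) (tst x₀ R) x = 0) :
    (∀ x, Dd v a x = 0) ∨ (∀ x, 0 < Dd v a x) ∨ ∀ x, Dd v a x < 0 := by
  by_cases h0 : ∃ x₀, Dd v a x₀ = 0
  · obtain ⟨x₀, hx₀⟩ := h0
    left
    intro x
    refine abs_eq_zero.1 (eq_zero_of_weak (w := fun y => |Dd v a y|) (C := 4)
      (c := fun y => 3 * v y ^ 2 - 1) (continuous_Dd h.smooth a).abs (fun y => abs_nonneg _)
      (((h.smooth.continuous.pow 2).const_mul 3).sub continuous_const) (fun y => ?_)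
      (hw x₀) (by simp [hx₀]) x)
    obtain ⟨h1, h2⟩ := abs_le.1 (h.bdd y)
    rw [abs_le]; constructor <;> nlinarith
  · push Not at h0
    right
    by_contra hc
    push Not at hc
    obtain ⟨⟨x1, h1⟩, x2, h2⟩ := hc
    obtain ⟨z, hz⟩ := intermediate_value_univ x1 x2 (continuous_Dd h.smooth a)
      ⟨h1, h2⟩
    exact h0 z hz

end Vale.Agent.P134.Periodic
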